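import Mathlib

namespace Vale.Agent.P304.H328

/-- The matrix of the distances between the points `x, r₁, …, rₙ`, where `h = [r₁, …, rₙ]`. -/
noncomputable def distMatrix {X : Type} [MetricSpace X] (x : X) (h : List X) :
    Fin (h.length + 1) → Fin (h.length + 1) → ℝ :=
  fun i j => dist ((x :: h).get i) ((x :: h).get j)

end Vale.Agent.P304.H328
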