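import Vale.Agent.P304.H328.Defs

/-! A coherent isometric embedding of all finite metric histories into one space of bounded
functions. -/

open scoped ENNReal

namespace Vale.Agent.P304.H328

/-- coordinates: a number `m`, a matrix `G` and a function `φ` -/
abbrev Co : Type := ℕ × (ℕ → ℕ → ℝ) × (ℕ → ℝ)

/-- agreement of two matrices on `{0, …, j}²` -/
def Agree (D G : ℕ → ℕ → ℝ) (j : ℕ) : Prop := ∀ a ≤ j, ∀ b ≤ j, D a b = G a b

theorem Agree.mono {D G : ℕ → ℕ → ℝ} {i j : ℕ} (h : Agree D G j) (hij : i ≤ j) : Agree D G i :=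
  fun a ha b hb => h a (ha.trans hij) b (hb.trans hij)

theorem Agree.symm {D G : ℕ → ℕ → ℝ} {j : ℕ} (h : Agree D G j) : Agree G D j :=
  fun a ha b hb => (h a ha b hb).symm

theorem Agree.trans {D G H : ℕ → ℕ → ℝ} {j : ℕ} (h : Agree D G j) (h' : Agree G H j) :
    Agree D H j :=
  fun a ha b hb => (h a ha b hb).trans (h' a ha b hb)

/-- `φ` is `1`-Lipschitz with respect to `G` on `{0, …, m}` -/
def Valid (c : Co) : Prop :=
  c.2.1 0 0 = 0 ∧ ∀ a ≤ c.1, ∀ b ≤ c.1, c.2.2 a ≤ c.2.2 b + c.2.1 a b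

/-- the values of which the coordinate is the infimum -/
def vals (t : ℕ) (D : ℕ → ℕ → ℝ) (c : Co) : Set ℝ :=
  {x | ∃ j, j ≤ t ∧ j ≤ c.1 ∧ Agree D c.2.1 j ∧ x = c.2.2 j + D j t}

open Classical in
/-- the coordinate `c` of the last point of the history `(t, D)` -/
noncomputable def fco (t : ℕ) (D : ℕ → ℕ → ℝ) (c : Co) : ℝ :=
  if Valid c then sInf (vals t D c) else 0

/-- pseudometrics on `ℕ` -/
structure PsM (D : ℕ → ℕ → ℝ) : Prop where
  self : ∀ a, D a a = 0
  symm : ∀ a b, D a b = D b a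
  tri : ∀ a b c, D a c ≤ D a b + D b c

theorem PsM.nonneg {D : ℕ → ℕ → ℝ} (hD : PsM D) (a b : ℕ) : 0 ≤ D a b := by
  have h1 := hD.tri a b a
  rw [hD.self, hD.symm b a] at h1
  linarith

theorem vals_bdd (t : ℕ) (D : ℕ → ℕ → ℝ) (c : Co) : BddBelow (vals t D c) := by
  have h : vals t D c ⊆ (fun j => c.2.2 j + D j t) '' Set.Iic t := by
    rintro x ⟨j, hj, -, -, rfl⟩
    exact ⟨j, hj, rfl⟩
  exact ((Set.finite_Iic t).image _).bddBelow.mono h

theorem vals_nonempty {D : ℕ → ℕ → ℝ} (hD : PsM D) (t : ℕ) {c : Co} (hc : Valid c) :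
    (vals t D c).Nonempty := by
  refine ⟨_, 0, Nat.zero_le _, Nat.zero_le _, ?_, rfl⟩
  intro a ha b hb
  obtain rfl : a = 0 := by omega
  obtain rfl : b = 0 := by omega
  rw [hD.self, hc.1]

theorem fco_le {t : ℕ} {D : ℕ → ℕ → ℝ} {c : Co} (hc : Valid c) {j : ℕ} (h1 : j ≤ t)
    (h2 : j ≤ c.1) (h3 : Agree D c.2.1 j) : fco t D c ≤ c.2.2 j + D j t := by
  unfold fco
  rw [if_pos hc]
  exact csInf_le (vals_bdd t D c) ⟨j, h1, h2, h3, rfl⟩

theorem le_fco {t : ℕ} {D : ℕ → ℕ → ℝ} (hD : PsM D) {c : Co} (hc : Valid c) {x : ℝ}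
    (h : ∀ j, j ≤ t → j ≤ c.1 → Agree D c.2.1 j → x ≤ c.2.2 j + D j t) : x ≤ fco t D c := by
  unfold fco
  rw [if_pos hc]
  refine le_csInf (vals_nonempty hD t hc) ?_
  rintro y ⟨j, h1, h2, h3, rfl⟩
  exact h j h1 h2 h3

theorem fco_sub_le {D : ℕ → ℕ → ℝ} (hD : PsM D) (a b : ℕ) (c : Co) :
    fco a D c - fco b D c ≤ D a b := by
  by_cases hc : Valid c
  · have h1 : fco a D c - D a b ≤ fco b D c := by
      refine le_fco hD hc fun j h1 h2 h3 => ?_
      rcases le_or_gt j a with hja | hja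
      · have h4 := fco_le hc hja h2 h3
        have h5 := hD.tri j b a
        rw [hD.symm b a] at h5
        linarith
      · have h4 := fco_le hc (le_refl a) (hja.le.trans h2) (h3.mono hja.le)
        rw [hD.self, add_zero] at h4
        have h5 := hc.2 a (hja.le.trans h2) j h2
        have h6 := h3 a hja.le j le_rfl
        have h7 := hD.tri a b j
        rw [hD.symm b j] at h7
        rw [← h6] at h5
        linarith
    linarith
  · unfold fco
    rw [if_neg hc, if_neg hc, sub_zero]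
    exact hD.nonneg a b

theorem abs_fco_sub_le {D : ℕ → ℕ → ℝ} (hD : PsM D) (a b : ℕ) (c : Co) :
    |fco a D c - fco b D c| ≤ D a b := by
  have h1 := fco_sub_le hD a b c
  have h2 := fco_sub_le hD b a c
  rw [hD.symm b a] at h2
  rw [abs_le]
  constructor <;> linarith

theorem exists_fco_sub {D : ℕ → ℕ → ℝ} (hD : PsM D) {a b : ℕ} (hab : a ≤ b) :
    ∃ c : Co, D a b ≤ fco b D c - fco a D c := by
  refine ⟨(b, D, fun j => D j a), ?_⟩
  have hc : Valid (b, D, fun j => D j a) := by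
    refine ⟨hD.self 0, fun i _ j _ => ?_⟩
    have := hD.tri i j a
    show D i a ≤ D j a + D i j
    linarith
  have h1 : fco a D (b, D, fun j => D j a) ≤ 0 := by
    have := fco_le (t := a) (D := D) hc (le_refl a) hab (fun _ _ _ _ => rfl)
    simpa [hD.self] using this
  have h2 : D a b ≤ fco b D (b, D, fun j => D j a) := by
    refine le_fco hD hc fun j _ _ _ => ?_
    have := hD.tri a j b
    rw [hD.symm a j] at this
    exact this
  linarith

theorem vals_congr {t : ℕ} {D D' : ℕ → ℕ → ℝ} (h : Agree D D' t) (c : Co) :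
    vals t D c = vals t D' c := by
  have key : ∀ {D D' : ℕ → ℕ → ℝ}, Agree D D' t → vals t D c ⊆ vals t D' c := by
    intro D D' h
    rintro x ⟨j, h1, h2, h3, rfl⟩
    exact ⟨j, h1, h2, (h.mono h1).symm.trans h3, by rw [h j h1 t le_rfl]⟩
  exact Set.Subset.antisymm (key h) (key h.symm)

theorem fco_congr {t : ℕ} {D D' : ℕ → ℕ → ℝ} (h : Agree D D' t) (c : Co) :
    fco t D c = fco t D' c := by
  unfold fco
  rw [vals_congr h c]

/-- the universal space -/
abbrev UU : Type := lp (fun _ : Co => ℝ) ∞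

open Classical in
/-- the place of the last point of the history `(t, D)` in the universal space -/
noncomputable def em (t : ℕ) (D : ℕ → ℕ → ℝ) : UU :=
  if h : Memℓp (fun c : Co => fco t D c - fco 0 D c) ∞ then ⟨_, h⟩ else 0

theorem memlp {D : ℕ → ℕ → ℝ} (hD : PsM D) (t : ℕ) :
    Memℓp (fun c : Co => fco t D c - fco 0 D c) ∞ := by
  refine memℓp_infty ⟨D t 0, ?_⟩
  rintro _ ⟨c, rfl⟩
  exact abs_fco_sub_le hD t 0 c

theorem em_apply {D : ℕ → ℕ → ℝ} (hD : PsM D) (t : ℕ) (c : Co) :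
    (em t D : Co → ℝ) c = fco t D c - fco 0 D c := by
  unfold em
  rw [dif_pos (memlp hD t)]

theorem em_congr {t : ℕ} {D D' : ℕ → ℕ → ℝ} (h : Agree D D' t) : em t D = em t D' := by
  have h1 : (fun c : Co => fco t D c - fco 0 D c) = fun c => fco t D' c - fco 0 D' c := by
    funext c
    rw [fco_congr h c, fco_congr (h.mono (Nat.zero_le t)) c]
  by_cases hh : Memℓp (fun c : Co => fco t D c - fco 0 D c) ∞
  · have hh' : Memℓp (fun c : Co => fco t D' c - fco 0 D' c) ∞ := h1 ▸ hh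
    unfold em
    rw [dif_pos hh, dif_pos hh']
    exact Subtype.ext h1
  · have hh' : ¬ Memℓp (fun c : Co => fco t D' c - fco 0 D' c) ∞ := h1 ▸ hh
    unfold em
    rw [dif_neg hh, dif_neg hh']

theorem dist_em {D : ℕ → ℕ → ℝ} (hD : PsM D) (a b : ℕ) : dist (em a D) (em b D) = D a b := by
  wlog hab : a ≤ b generalizing a b
  · rw [dist_comm, this b a (le_of_not_ge hab), hD.symm]
  have h0 : ∀ c, (em a D - em b D : UU) c = fco a D c - fco b D c := by
    intro c
    rw [lp.coeFn_sub, Pi.sub_apply, em_apply hD, em_apply hD]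
    ring
  apply le_antisymm
  · rw [dist_eq_norm]
    refine lp.norm_le_of_forall_le (hD.nonneg a b) fun c => ?_
    rw [h0 c, Real.norm_eq_abs]
    exact abs_fco_sub_le hD a b c
  · obtain ⟨c, hc⟩ := exists_fco_sub hD hab
    refine hc.trans ?_
    rw [dist_comm, dist_eq_norm]
    have h1 := lp.norm_apply_le_norm ENNReal.top_ne_zero (em b D - em a D : UU) c
    refine le_trans ?_ h1
    rw [lp.coeFn_sub, Pi.sub_apply, em_apply hD, em_apply hD, Real.norm_eq_abs]
    refine le_trans (le_of_eq ?_) (le_abs_self _)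
    ring

theorem em_zero {D : ℕ → ℕ → ℝ} (hD : PsM D) : em 0 D = 0 := by
  apply lp.ext
  funext c
  rw [em_apply hD, sub_self]
  rfl

end Vale.Agent.P304.H328
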