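import Vale.Agent.P304.Bdl.B2
import Vale.Agent.P304.H328.Embed

/-! One randomized policy for all metric spaces, which sees only the distances between the
requested points. -/

open MeasureTheory
open scoped ENNReal NNReal

namespace Vale.Agent.P304.H328

open Vale.Agent.P304

/-- extension of a matrix by zero -/
noncomputable def ext {n : ℕ} (M : Fin (n + 1) → Fin (n + 1) → ℝ) : ℕ → ℕ → ℝ := fun i j =>
  if h : i < n + 1 ∧ j < n + 1 then M ⟨i, h.1⟩ ⟨j, h.2⟩ else 0

/-- the places of the requests in the universal space -/
noncomputable def places (n : ℕ) (M : Fin (n + 1) → Fin (n + 1) → ℝ) : List UU :=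
  (List.range n).map fun t => em (t + 1) (ext M)

section instance_

variable {X : Type} [MetricSpace X]

/-- the points `x, r₁, r₂, …` -/
def pt (x : X) (σ : List X) (i : ℕ) : X := (x :: σ).getD i x

/-- their distances -/
noncomputable def DD (x : X) (σ : List X) (i j : ℕ) : ℝ := dist (pt x σ i) (pt x σ j)

theorem psM_DD (x : X) (σ : List X) : PsM (DD x σ) :=
  ⟨fun _ => dist_self _, fun _ _ => dist_comm _ _, fun _ _ _ => dist_triangle _ _ _⟩

omit [MetricSpace X] in
theorem pt_zero (x : X) (σ : List X) : pt x σ 0 = x := rfl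

omit [MetricSpace X] in
theorem pt_succ (x : X) (σ : List X) {i : ℕ} (hi : i < σ.length) : pt x σ (i + 1) = σ[i] := by
  unfold pt
  rw [List.getD_cons_succ, List.getD_eq_getElem _ _ hi]

theorem agree_take (x : X) (σ : List X) (t : ℕ) (ht : t ≤ σ.length) :
    Agree (ext (distMatrix x (σ.take t))) (DD x σ) t := by
  have hlen : (σ.take t).length = t := by rw [List.length_take]; omega
  have key : ∀ i (hi : i < (x :: σ.take t).length), (x :: σ.take t)[i] = pt x σ i := by
    intro i hi
    rw [List.length_cons, hlen] at hi
    rcases i with _ | i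
    · rfl
    · rw [pt_succ x σ (by omega)]
      simp
  intro a ha b hb
  unfold ext
  rw [dif_pos ⟨by omega, by omega⟩]
  unfold distMatrix DD
  simp only [List.get_eq_getElem]
  rw [key, key]

theorem places_take (x : X) (σ : List X) (t : ℕ) (ht : t ≤ σ.length) :
    places (σ.take t).length (distMatrix x (σ.take t)) =
      ((List.range σ.length).map fun i => em (i + 1) (DD x σ)).take t := by
  have hlen : (σ.take t).length = t := by rw [List.length_take]; omega
  unfold places
  rw [← List.map_take, List.take_range, min_eq_left ht]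
  conv_rhs => rw [← hlen]
  refine List.map_congr_left fun i hi => ?_
  rw [List.mem_range, hlen] at hi
  exact em_congr ((agree_take x σ t ht).mono (by omega))

/-- the finite subspace of the points of the instance -/
abbrev YY (x : X) (σ : List X) : Type := {y : X // ∃ i, pt x σ i = y}

/-- its place in the universal space -/
noncomputable def eY (x : X) (σ : List X) (y : YY x σ) : UU := em y.2.choose (DD x σ)

theorem eY_eq (x : X) (σ : List X) (i : ℕ) (y : YY x σ) (hi : pt x σ i = y.1) :
    eY x σ y = em i (DD x σ) := by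
  unfold eY
  rw [← dist_eq_zero, dist_em (psM_DD x σ)]
  unfold DD
  rw [y.2.choose_spec, hi, dist_self]

theorem dist_eY (x : X) (σ : List X) (y z : YY x σ) :
    dist (eY x σ y) (eY x σ z) = dist y z := by
  obtain ⟨i, hi⟩ := y.2
  obtain ⟨j, hj⟩ := z.2
  rw [eY_eq x σ i y hi, eY_eq x σ j z hj, dist_em (psM_DD x σ)]
  unfold DD
  rw [hi, hj]
  rfl

/-- the requests as points of the subspace -/
def σY (x : X) (σ : List X) : List (YY x σ) :=
  (List.range σ.length).map fun i => ⟨pt x σ (i + 1), i + 1, rfl⟩

omit [MetricSpace X] in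
theorem map_val (x : X) (σ : List X) : (σY x σ).map Subtype.val = σ := by
  unfold σY
  rw [List.map_map]
  refine List.ext_getElem (by simp) fun i h1 h2 => ?_
  simp only [List.getElem_map, List.getElem_range, Function.comp_apply]
  exact pt_succ x σ h2

theorem map_eY (x : X) (σ : List X) :
    (σY x σ).map (eY x σ) = (List.range σ.length).map fun i => em (i + 1) (DD x σ) := by
  unfold σY
  rw [List.map_map]
  refine List.map_congr_left fun i _ => ?_
  exact eY_eq x σ (i + 1) _ rfl

omit [MetricSpace X] in
theorem length_σY (x : X) (σ : List X) : (σY x σ).length = σ.length := by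
  unfold σY
  rw [List.length_map, List.length_range]

/-- the places of all requests -/
noncomputable def σU (x : X) (σ : List X) : List UU :=
  (List.range σ.length).map fun i => em (i + 1) (DD x σ)

variable {k : ℕ}

theorem opt_U [NeZero k] (x : X) (σ : List X) :
    opt (fun _ : Fin k => x) σ = opt (fun _ : Fin k => (0 : UU)) (σU x σ) := by
  have h1 := opt_similar (k := k) (e := (Subtype.val : YY x σ → X)) one_pos
    (fun a b => by rw [one_mul]; rfl) (σY x σ) (fun _ => ⟨x, 0, rfl⟩)
  have h2 := opt_similar (k := k) (e := eY x σ) one_pos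
    (fun a b => by rw [one_mul]; exact dist_eY x σ a b) (σY x σ) (fun _ => ⟨x, 0, rfl⟩)
  rw [map_val] at h1
  rw [map_eY] at h2
  have h3 : (Subtype.val ∘ fun _ : Fin k => (⟨x, 0, rfl⟩ : YY x σ)) = fun _ => x := rfl
  have h4 : (eY x σ ∘ fun _ : Fin k => (⟨x, 0, rfl⟩ : YY x σ)) = fun _ => (0 : UU) := by
    funext i
    exact (eY_eq x σ 0 _ rfl).trans (em_zero (psM_DD x σ))
  rw [h3] at h1
  rw [h4] at h2
  rw [h1, ← h2]
  rfl

theorem policyCost_similar {Y Z : Type} [MetricSpace Y] [MetricSpace Z] {e : Y → Z}
    (he : ∀ a b, dist (e a) (e b) = 1 * dist a b) (p : Fin k → Y) (a : List Z → Fin k)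
    (σ : List Y) : policyCost (e ∘ p) a (σ.map e) = policyCost p (fun h => a (h.map e)) σ := by
  rw [policyCost_eq, policyCost_eq]
  have := runCost_similar he a σ [] p
  rw [one_mul] at this
  exact this

theorem policyCost_U (x : X) (σ : List X) (a : List UU → Fin k) :
    policyCost (fun _ : Fin k => x) (fun h => a (places h.length (distMatrix x h))) σ =
      policyCost (fun _ : Fin k => (0 : UU)) a (σU x σ) := by
  have h1 := policyCost_similar (k := k) (e := (Subtype.val : YY x σ → X))
    (fun a b => by rw [one_mul]; rfl) (fun _ => ⟨x, 0, rfl⟩)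
    (fun h => a (places h.length (distMatrix x h))) (σY x σ)
  have h2 := policyCost_similar (k := k) (e := eY x σ)
    (fun a b => by rw [one_mul]; exact dist_eY x σ a b) (fun _ => ⟨x, 0, rfl⟩) a (σY x σ)
  rw [map_val] at h1
  rw [map_eY] at h2
  have h3 : (Subtype.val ∘ fun _ : Fin k => (⟨x, 0, rfl⟩ : YY x σ)) = fun _ => x := rfl
  have h4 : (eY x σ ∘ fun _ : Fin k => (⟨x, 0, rfl⟩ : YY x σ)) = fun _ => (0 : UU) := by
    funext i
    exact (eY_eq x σ 0 _ rfl).trans (em_zero (psM_DD x σ))
  rw [h3] at h1
  rw [h4] at h2
  rw [h1]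
  refine Eq.trans ?_ h2.symm
  refine Dyn.policyCost_congr _ _ _ _ fun t ht => ?_
  rw [length_σY] at ht
  have h5 : ((σY x σ).take (t + 1)).map Subtype.val = σ.take (t + 1) := by
    rw [List.map_take, map_val]
  have h6 : ((σY x σ).take (t + 1)).map (eY x σ) =
      ((List.range σ.length).map fun i => em (i + 1) (DD x σ)).take (t + 1) := by
    rw [List.map_take, map_eY]
  have h7 : ∀ h h' : List X, h = h' →
      places h.length (distMatrix x h) = places h'.length (distMatrix x h') := by
    rintro h _ rfl
    rfl
  simp only [h6]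
  rw [h7 _ _ h5, places_take x σ (t + 1) (by omega)]

end instance_

/-- One randomized policy which sees only distances is good for all metric spaces and all
starting positions. -/
theorem exists_universal {k : ℕ} (hk : 0 < k) (hR : R k ≠ ⊤) :
    ∃ (Ω : Type) (_ : MeasurableSpace Ω) (P : Measure Ω)
      (A : Ω → (n : ℕ) → (Fin (n + 1) → Fin (n + 1) → ℝ) → Fin k),
      IsProbabilityMeasure P ∧ (∀ n M, Measurable fun ω => A ω n M) ∧
        ∀ (X : Type) [MetricSpace X] (s : Fin k → X) (σ : List X),
          ∫ ω, policyCost s (fun h => A ω h.length (distMatrix (s ⟨0, hk⟩) h)) σ ∂P ≤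
            (R k).toReal * opt s σ + (1 + (R k).toReal) * ∑ i, dist (s i) (s ⟨0, hk⟩) := by
  have : NeZero k := ⟨hk.ne'⟩
  obtain ⟨Ω, m, P, A, hP, hA, hc⟩ := good_strict_R (X := UU) hR 0
  refine ⟨Ω, m, P, fun ω n M => A ω (places n M), hP, fun n M => hA _, ?_⟩
  intro X _ s σ
  obtain ⟨x, hx⟩ : ∃ x, x = s ⟨0, hk⟩ := ⟨_, rfl⟩
  rw [← hx]
  have hR0 : 0 ≤ (R k).toReal := ENNReal.toReal_nonneg
  have h1 : ∫ ω, policyCost (fun _ : Fin k => x)
      (fun h => A ω (places h.length (distMatrix x h))) σ ∂P ≤
      (R k).toReal * opt (fun _ : Fin k => x) σ := by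
    have h2 := hc (σU x σ) (Set.mem_univ _)
    rw [add_zero, ← opt_U] at h2
    refine le_trans (le_of_eq ?_) h2
    congr 1
    funext ω
    exact policyCost_U x σ (A ω)
  have hA' : ∀ h : List X, Measurable fun ω => A ω (places h.length (distMatrix x h)) :=
    fun h => hA _
  have h3 : ∀ ω, policyCost s (fun h => A ω (places h.length (distMatrix x h))) σ ≤
      lab 1 s (fun _ => x) + policyCost (fun _ : Fin k => x)
        (fun h => A ω (places h.length (distMatrix x h))) σ := by
    intro ω
    rw [policyCost_eq, policyCost_eq]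
    have h4 := sim 1 (fun h => A ω (places h.length (distMatrix x h)))
      (fun h => A ω (places h.length (distMatrix x h))) [] (fun h => rfl) σ [] s (fun _ => x)
    have h5 := lab_nonneg 1 (runPos (fun h => A ω (places h.length (distMatrix x h))) [] s σ)
      (runPos (fun h => A ω (places h.length (distMatrix x h))) [] (fun _ : Fin k => x) σ)
    simp only [List.append_nil] at h4
    linarith
  have h6 : ∫ ω, policyCost s (fun h => A ω (places h.length (distMatrix x h))) σ ∂P ≤
      lab 1 s (fun _ => x) + ∫ ω, policyCost (fun _ : Fin k => x)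
        (fun h => A ω (places h.length (distMatrix x h))) σ ∂P := by
    calc ∫ ω, policyCost s (fun h => A ω (places h.length (distMatrix x h))) σ ∂P
        ≤ ∫ ω, (lab 1 s (fun _ => x) + policyCost (fun _ : Fin k => x)
          (fun h => A ω (places h.length (distMatrix x h))) σ) ∂P :=
          integral_mono (integrable_policyCost (A := fun ω h =>
            A ω (places h.length (distMatrix x h))) hA' s σ)
            ((integrable_const _).add (integrable_policyCost (A := fun ω h =>
            A ω (places h.length (distMatrix x h))) hA' (fun _ => x) σ)) h3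
      _ = _ := by
          rw [integral_add (integrable_const _) (integrable_policyCost (A := fun ω h =>
            A ω (places h.length (distMatrix x h))) hA' (fun _ => x) σ)]
          simp
  have h7 : opt (fun _ : Fin k => x) σ ≤ lab 1 s (fun _ => x) + opt s σ := by
    refine (opt_le_mdist_add (fun _ : Fin k => x) s σ).trans (add_le_add_left ?_ _)
    rw [mdist_comm]
    exact mdist_le 1 s _
  have h8 : lab 1 s (fun _ => x) = ∑ i, dist (s i) x := rfl
  have h9 := mul_le_mul_of_nonneg_left h7 hR0
  rw [← h8]
  linarith

end Vale.Agent.P304.H328
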